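import Vale.Agent.P070.ZFC.Dicho.Core
import Vale.Agent.P070.ZFC.Excision

/-!
# P070 ZFC, section 2: dichotomy for conditional expectations

For an excised sequence `p` of `C` and a positive unital bimodular `Φ : C → D`: either the irreducible
representation of the excised state has a closed subspace irreducible for `D`, or `Φ (z p n z*)` tends
to zero in norm for every `z`.
-/

noncomputable section

universe u

namespace Vale.Agent.P070.ZFC.Dicho

open scoped InnerProductSpace ComplexOrder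
open Filter Topology

variable {C D : Type u} [CStarAlgebra C] [CStarAlgebra D]

/-- No closed invariant subspaces other than the trivial ones. -/
def IrrRep {A H : Type u} [CStarAlgebra A] [NormedAddCommGroup H] [InnerProductSpace ℂ H]
    [CompleteSpace H] (π : A →⋆ₐ[ℂ] (H →L[ℂ] H)) : Prop :=
  ∀ N : Submodule ℂ H, IsClosed (N : Set H) → Inv π N → N = ⊥ ∨ N = ⊤

/-- The restriction of a representation to a closed invariant subspace. -/
def restrict {A H : Type u} [CStarAlgebra A] [NormedAddCommGroup H] [InnerProductSpace ℂ H]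
    [CompleteSpace H] (π : A →⋆ₐ[ℂ] (H →L[ℂ] H)) (K : Submodule ℂ H) [CompleteSpace K]
    (hK : Inv π K) : A →⋆ₐ[ℂ] (K →L[ℂ] K) where
  toFun a := ((π a).comp K.subtypeL).codRestrict K fun v => hK a v v.2
  map_one' := by ext v; simp
  map_mul' a b := by ext v; exact (apply_mul π a b v).symm
  map_zero' := by ext v; simp
  map_add' a b := by ext v; show π (a + b) (v : H) = π a v + π b v; simp
  commutes' r := by ext v; simp [Algebra.algebraMap_eq_smul_one]
  map_star' a := by
    refine (ContinuousLinearMap.eq_adjoint_iff _ _).2 fun x y => ?_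
    show ⟪π (star a) x, (y : H)⟫_ℂ = ⟪(x : H), π a y⟫_ℂ
    exact (apply_adj π a x y).symm

@[simp] lemma coe_restrict {A H : Type u} [CStarAlgebra A] [NormedAddCommGroup H]
    [InnerProductSpace ℂ H] [CompleteSpace H] (π : A →⋆ₐ[ℂ] (H →L[ℂ] H)) (K : Submodule ℂ H)
    [CompleteSpace K] (hK : Inv π K) (a : A) (v : K) : (restrict π K hK a v : H) = π a v :=
  rfl

/-- The irreducible representation of `η` has a closed subspace irreducible for `D`. -/
def Meets (j : D →⋆ₐ[ℂ] C) (η : C → ℂ) : Prop :=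
  ∃ (H : Type u) (_ : NormedAddCommGroup H) (_ : InnerProductSpace ℂ H) (_ : CompleteSpace H)
    (π : C →⋆ₐ[ℂ] (H →L[ℂ] H)) (ξ : H) (E : Submodule ℂ H),
    IrrRep π ∧ ‖ξ‖ = 1 ∧ (∀ x, ⟪ξ, π x ξ⟫_ℂ = η x) ∧ DenseRange (fun a => π a ξ) ∧
      IrrInv (π.comp j) E

/-- The GNS representation of a state. -/
lemma exists_gns {f : C → ℂ} (hf : IsState f) :
    ∃ (H : Type u) (_ : NormedAddCommGroup H) (_ : InnerProductSpace ℂ H) (_ : CompleteSpace H)
      (π : C →⋆ₐ[ℂ] (H →L[ℂ] H)) (Ω : H),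
      (∀ a, ⟪Ω, π a Ω⟫_ℂ = f a) ∧ DenseRange fun a => π a Ω := by
  let _ : PartialOrder C := CStarAlgebra.spectralOrder C
  have _ : StarOrderedRing C := CStarAlgebra.spectralOrderedRing C
  set F := hf.toPositive
  have hF : ∀ x, F x = f x := fun _ => rfl
  have hv : ∀ a, F.gnsStarAlgHom a (F.toPreGNS 1 : F.GNS) = (F.toPreGNS a : F.GNS) := fun a => by
    show F.gnsNonUnitalStarAlgHom a _ = _
    rw [PositiveLinearMap.gnsNonUnitalStarAlgHom_apply_coe]
    simp
  refine ⟨F.GNS, inferInstance, inferInstance, inferInstance, F.gnsStarAlgHom,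
    (F.toPreGNS 1 : F.GNS), fun a => ?_, ?_⟩
  · rw [hv, UniformSpace.Completion.inner_coe, PositiveLinearMap.preGNS_inner_def]
    simp [hF]
  · simp only [hv]
    exact UniformSpace.Completion.denseRange_coe.comp F.toPreGNS.surjective.denseRange
      (UniformSpace.Completion.continuous_coe _)

variable (j : D →⋆ₐ[ℂ] C) (Φ : C →ₗ[ℂ] D)

/-- Decreasing positive sequences which do not tend to zero are seen by one state. -/
lemma exists_state_lower (hpos : ∀ f : D → ℂ, IsState f → ∀ a, 0 ≤ f (Φ (star a * a)))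
    {p : ℕ → C} (hp : IsProjSeq p) (z : C)
    (h : ¬ Tendsto (fun n => ‖Φ (z * p n * star z)‖) atTop (𝓝 0)) :
    ∃ τ : D → ℂ, IsState τ ∧ ∃ δ : ℝ, 0 < δ ∧ ∀ n, δ ≤ (τ (Φ (z * p n * star z))).re := by
  have hnn : ∀ f : D → ℂ, IsState f → ∀ n, 0 ≤ f (Φ (z * p n * star z)) := by
    intro f hf n
    have h1 := hpos f hf (p n * star z)
    rwa [star_mul, star_star, hp.star_eq, mul_assoc, ← mul_assoc (p n), hp.idem, ← mul_assoc] at h1
  have hanti : ∀ f : D → ℂ, IsState f → ∀ m n, m ≤ n →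
      (f (Φ (z * p n * star z))).re ≤ (f (Φ (z * p m * star z))).re := by
    intro f hf m n hmn
    have h1 := hpos f hf ((p m - p n) * star z)
    have e : star ((p m - p n) * star z) * ((p m - p n) * star z) =
        z * p m * star z - z * p n * star z := by
      rw [star_mul, star_star, star_sub, hp.star_eq, hp.star_eq]
      have : (p m - p n) * (p m - p n) = p m - p n := by
        rw [sub_mul, mul_sub, mul_sub, hp.idem, hp.idem, hp.le_mul hmn, hp.mul_le hmn]
        abel
      rw [mul_assoc, ← mul_assoc (p m - p n), this, ← mul_assoc, mul_sub, sub_mul]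
    rw [e, map_sub, hf.map_sub] at h1
    have := (Complex.le_def.1 h1).1
    simp only [Complex.zero_re, Complex.sub_re] at this
    linarith
  by_contra hcon
  push Not at hcon
  refine h (Metric.tendsto_atTop.2 fun ε hε => ?_)
  have hK := isCompact_states (A := D)
  set S : ℕ → Set (D → ℂ) := fun n =>
    {f | IsState f} ∩ {f | ε / 4 ≤ (f (Φ (z * p n * star z))).re}
  obtain ⟨N, hN⟩ : ∃ N, S N = ∅ := by
    by_contra hne
    push Not at hne
    obtain ⟨τ, hτ⟩ := IsCompact.nonempty_iInter_of_sequence_nonempty_isCompact_isClosed S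
      (fun n f hf => ⟨hf.1, le_trans hf.2 (hanti f hf.1 n (n + 1) n.le_succ)⟩) hne
      (hK.inter_right (isClosed_le continuous_const (by fun_prop)))
      (fun n => isClosed_states.inter (isClosed_le continuous_const (by fun_prop)))
    have hτ0 := (Set.mem_iInter.1 hτ 0).1
    obtain ⟨n, hn⟩ := hcon τ hτ0 (ε / 4) (by positivity)
    linarith [(Set.mem_iInter.1 hτ n).2.out]
  refine ⟨N, fun n hn => ?_⟩
  have h2 : ‖Φ (z * p n * star z)‖ ≤ 2 * (ε / 4) := by
    refine norm_le_two_of_states (by positivity) fun f hf => ?_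
    have h0 := Complex.le_def.1 (hnn f hf n)
    have h1 : (f (Φ (z * p n * star z))).re < ε / 4 := by
      refine lt_of_le_of_lt (hanti f hf N n hn) (not_le.1 fun hle => ?_)
      exact (hN ▸ (show f ∈ S N from ⟨hf, hle⟩) : f ∈ (∅ : Set (D → ℂ))).elim
    have e : f (Φ (z * p n * star z)) = ((f (Φ (z * p n * star z))).re : ℂ) :=
      Complex.ext rfl h0.2.symm
    rw [e, Complex.norm_real, Real.norm_of_nonneg h0.1]
    exact h1.le
  rw [dist_zero_right, norm_norm]
  linarith

/-- The pinching argument applied to the GNS representation of `τ ∘ Φ`. -/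
theorem exists_subspaces (hone : Φ 1 = 1) (hl : ∀ d x, Φ (j d * x) = d * Φ x)
    (hr : ∀ x d, Φ (x * j d) = Φ x * d)
    (hpos : ∀ f : D → ℂ, IsState f → ∀ a, 0 ≤ f (Φ (star a * a))) {τ : D → ℂ} (hτ : IsState τ)
    {p : ℕ → C} {η : C → ℂ} (he : Excises p η) {z : C} {δ : ℝ} (hδ : 0 < δ)
    (hlow : ∀ n, δ ≤ (τ (Φ (z * p n * star z))).re) :
    ∃ (G : Type u) (_ : NormedAddCommGroup G) (_ : InnerProductSpace ℂ G) (_ : CompleteSpace G)
      (ρ : C →⋆ₐ[ℂ] (G →L[ℂ] G)) (Ω w : G) (E E' : Submodule ℂ G),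
      (∀ d, ⟪Ω, ρ (j d) Ω⟫_ℂ = τ d) ∧ ‖w‖ = 1 ∧ (∀ n, ρ (p n) w = w) ∧
      E ≤ orbitCl (ρ.comp j) Ω ∧ IrrInv (ρ.comp j) E ∧
      E' ≤ orbitCl ρ w ∧ IrrInv (ρ.comp j) E' := by
  have hjΦ : ∀ d, Φ (j d) = d := fun d => by
    simpa [hone] using hl d 1
  have hst : IsState fun x => τ (Φ x) :=
    ⟨fun a b => by rw [map_add, hτ.map_add], fun c a => by rw [map_smul, hτ.map_smul],
      by rw [hone, hτ.map_one], fun a => hpos τ hτ a⟩
  obtain ⟨G, _, _, _, ρ, Ω, hΩ, hd⟩ := exists_gns hst
  have hP := he.1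
  set v : ℕ → G := fun n => ρ (p n) (ρ (star z) Ω) with hv
  have hvv : ∀ m n, m ≤ n → ⟪v m, v n⟫_ℂ = τ (Φ (z * p n * star z)) := fun m n hmn => by
    rw [hv]
    simp only
    rw [← hΩ, apply_mul, apply_mul, apply_adj ρ (p n * star z), apply_mul,
      apply_adj ρ (z * p n * star z)]
    congr 2
    simp only [star_mul, star_star, hP.star_eq]
    rw [mul_assoc z, ← mul_assoc (p n), hP.mul_le hmn]
  set a : ℕ → ℝ := fun n => ‖v n‖ ^ 2 with ha
  have hva : ∀ n, τ (Φ (z * p n * star z)) = (a n : ℂ) := fun n => by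
    rw [← hvv n n le_rfl, inner_self_eq_norm_sq_to_K, ha]
    norm_cast
  have hdiff : ∀ m n, m ≤ n → ‖v m - v n‖ ^ 2 = a m - a n := fun m n hmn => by
    rw [norm_sub_sq (𝕜 := ℂ), hvv m n hmn, hva, RCLike.re_to_complex, Complex.ofReal_re, ha]
    ring
  have hanti : Antitone a := fun m n hmn => by nlinarith [hdiff m n hmn, sq_nonneg ‖v m - v n‖]
  have hbdd : BddBelow (Set.range a) := ⟨0, by rintro _ ⟨n, rfl⟩; exact sq_nonneg _⟩
  have hlim := tendsto_atTop_ciInf hanti hbdd
  have hcau : CauchySeq v := by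
    refine Metric.cauchySeq_iff'.2 fun ε hε => ?_
    obtain ⟨N, hN⟩ := Metric.tendsto_atTop.1 hlim (ε ^ 2) (by positivity)
    refine ⟨N, fun n hn => ?_⟩
    rw [dist_eq_norm, norm_sub_rev]
    refine lt_of_pow_lt_pow_left₀ 2 hε.le ?_
    rw [hdiff N n hn]
    linarith [(abs_lt.1 (hN N le_rfl)).2, ciInf_le hbdd n]
  obtain ⟨u, hu⟩ := cauchySeq_tendsto_of_complete hcau
  have hu0 : u ≠ 0 := by
    intro h0
    have h1 : Tendsto a atTop (𝓝 0) := by simpa [h0, ha] using hu.norm.pow 2
    refine absurd (ge_of_tendsto h1 (Eventually.of_forall fun n => ?_)) (not_le.2 hδ)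
    have := hlow n
    rwa [hva, Complex.ofReal_re] at this
  have hufix : ∀ n, ρ (p n) u = u := fun n => by
    refine tendsto_nhds_unique (((ρ (p n)).continuous.tendsto u).comp hu) (hu.congr' ?_)
    filter_upwards [eventually_ge_atTop n] with m hm
    simp only [hv, Function.comp_apply]
    rw [apply_mul ρ (p n), hP.le_mul hm]
  set w : G := (‖u‖⁻¹ : ℂ) • u with hw
  have hw1 : ‖w‖ = 1 := norm_smul_inv_norm hu0
  have hwfix : ∀ n, ρ (p n) w = w := fun n => by rw [hw, map_smul, hufix]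
  have hτΩ : ∀ d, ⟪Ω, ρ (j d) Ω⟫_ℂ = τ d := fun d => by rw [hΩ, hjΦ]
  obtain ⟨E, E', hE, hEi, hE', hE'i, -⟩ := exists_irrInv j Φ ρ (Ω := Ω) (w := w)
    (fun y d e => by
      have key : ∀ x, ⟪ρ (j d) Ω, ρ x (ρ (j e) Ω)⟫_ℂ = τ (star d * Φ x * e) := fun x => by
        rw [apply_mul, apply_adj ρ (x * j e), apply_mul, ← star_star (j d), ← star_mul,
          ← apply_adj, hΩ, ← mul_assoc, ← map_star j, hr, hl]
      rw [key, key, hjΦ])
    (by rw [orbitCl, ← SetLike.mem_coe, Submodule.topologicalClosure_coe]; exact hd w) hP.star_eq hwfix he.2 hw1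
  exact ⟨G, _, _, _, ρ, Ω, w, E, E', hτΩ, hw1, hwfix, hE, hEi, hE', hE'i⟩

/-- The dichotomy. -/
theorem dichotomy (hone : Φ 1 = 1) (hl : ∀ d x, Φ (j d * x) = d * Φ x)
    (hr : ∀ x d, Φ (x * j d) = Φ x * d)
    (hpos : ∀ f : D → ℂ, IsState f → ∀ a, 0 ≤ f (Φ (star a * a)))
    {p : ℕ → C} {η : C → ℂ} (he : Excises p η) :
    Meets j η ∨ ∀ z, Tendsto (fun n => ‖Φ (z * p n * star z)‖) atTop (𝓝 0) := by
  by_contra hcon
  push Not at hcon
  obtain ⟨hM, z, hz⟩ := hcon
  obtain ⟨τ, hτ, δ, hδ, hlow⟩ := exists_state_lower Φ hpos he.1 z hz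
  obtain ⟨G, _, _, _, ρ, Ω, w, E, E', -, hw1, hwfix, -, -, hE', hE'i⟩ :=
    exists_subspaces j Φ hone hl hr hpos hτ he hδ hlow
  set M := orbitCl ρ w with hMdef
  have : CompleteSpace M := (isClosed_orbitCl w).completeSpace_coe
  set π := restrict ρ M (inv_orbitCl w)
  have hMset : (M : Set G) = closure (Set.range fun a => ρ a w) := by
    rw [hMdef, orbitCl, Submodule.topologicalClosure_coe]
    rfl
  refine hM ⟨M, inferInstance, inferInstance, inferInstance, π, ⟨w, mem_orbitCl w⟩,
    E'.comap M.subtype, ?_, hw1, fun x => ?_, ?_, ?_⟩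
  · intro N hN hNi
    have hNc : IsClosed (N.map M.subtype : Set G) := by
      rw [Submodule.map_coe]
      exact (isClosed_orbitCl w).isClosedEmbedding_subtypeVal.isClosedMap _ hN
    rcases he.irreducible ρ hw1 hwfix hMset (N.map M.subtype) (Submodule.map_subtype_le M N) hNc
      (by rintro a _ ⟨v, hv, rfl⟩; exact ⟨π a v, hNi a v hv, rfl⟩) with h | h
    · exact Or.inl (Submodule.map_injective_of_injective M.injective_subtype (by rw [h, Submodule.map_bot]))
    · exact Or.inr (Submodule.map_injective_of_injective M.injective_subtype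
        (by rw [h, Submodule.map_top, Submodule.range_subtype]))
  · exact he.state_of_fixed ρ hw1 hwfix x
  · intro v
    rw [closure_subtype]
    have hv := v.2
    rw [← SetLike.mem_coe, hMset] at hv
    refine closure_mono ?_ hv
    rintro _ ⟨a, rfl⟩
    exact ⟨π a ⟨w, mem_orbitCl w⟩, ⟨a, rfl⟩, rfl⟩
  · refine ⟨hE'i.closed.preimage continuous_subtype_val, fun h => hE'i.ne_bot ?_,
      fun d v hv => hE'i.inv d (v : G) hv, fun F hF hFc hFi => ?_⟩
    · rw [← Submodule.map_comap_subtype M E' |>.trans (inf_eq_right.2 hE'), h, Submodule.map_bot]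
    · have hFc' : IsClosed (F.map M.subtype : Set G) := by
        rw [Submodule.map_coe]
        exact (isClosed_orbitCl w).isClosedEmbedding_subtypeVal.isClosedMap _ hFc
      rcases hE'i.minimal (F.map M.subtype) (Submodule.map_le_iff_le_comap.2 hF) hFc'
          (by rintro d _ ⟨v, hv, rfl⟩; exact ⟨π (j d) v, hFi d v hv, rfl⟩) with h | h
      · exact Or.inl (Submodule.map_injective_of_injective M.injective_subtype (by rw [h, Submodule.map_bot]))
      · exact Or.inr (Submodule.map_injective_of_injective M.injective_subtype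
          (by rw [h, Submodule.map_comap_subtype, inf_eq_right.2 hE']))

/-- Composition with an expectation keeps a state diffuse, when vector states of irreducible
representations of `D` are excised. -/
theorem isDiffuse_comp (hone : Φ 1 = 1) (hl : ∀ d x, Φ (j d * x) = d * Φ x)
    (hr : ∀ x d, Φ (x * j d) = Φ x * d)
    (hpos : ∀ f : D → ℂ, IsState f → ∀ a, 0 ≤ f (Φ (star a * a)))
    (hex : ∀ (H : Type u) [NormedAddCommGroup H] [InnerProductSpace ℂ H] [CompleteSpace H]
      (π : D →⋆ₐ[ℂ] (H →L[ℂ] H)) (e : H), IrrRep π → ‖e‖ = 1 →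
      ∃ q, Excises q fun d => ⟪e, π d e⟫_ℂ)
    {σ : D → ℂ} (hσ : IsDiffuse σ) : IsDiffuse fun x => σ (Φ x) := by
  refine ⟨⟨fun a b => by rw [map_add, hσ.1.map_add], fun c a => by rw [map_smul, hσ.1.map_smul],
    by rw [hone, hσ.1.map_one], fun a => hpos σ hσ.1 a⟩, fun p η he z => ?_⟩
  by_contra hcon
  have hP := he.1
  have hnn : ∀ n, 0 ≤ σ (Φ (z * p n * star z)) := fun n => by
    have h1 := hpos σ hσ.1 (p n * star z)
    rwa [star_mul, star_star, hP.star_eq, mul_assoc, ← mul_assoc (p n), hP.idem, ← mul_assoc] at h1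
  have hanti : Antitone fun n => (σ (Φ (z * p n * star z))).re := by
    refine antitone_nat_of_succ_le fun n => ?_
    have h1 := hpos σ hσ.1 ((p n - p (n + 1)) * star z)
    have e : star ((p n - p (n + 1)) * star z) * ((p n - p (n + 1)) * star z) =
        z * p n * star z - z * p (n + 1) * star z := by
      rw [star_mul, star_star, star_sub, hP.star_eq, hP.star_eq]
      have : (p n - p (n + 1)) * (p n - p (n + 1)) = p n - p (n + 1) := by
        rw [sub_mul, mul_sub, mul_sub, hP.idem, hP.idem, hP.le_mul n.le_succ, hP.mul_le n.le_succ]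
        abel
      rw [mul_assoc, ← mul_assoc (p n - p (n + 1)), this, ← mul_assoc, mul_sub, sub_mul]
    rw [e, map_sub, hσ.1.map_sub] at h1
    have := (Complex.le_def.1 h1).1
    simp only [Complex.zero_re, Complex.sub_re] at this
    linarith
  have hre : ∀ n, σ (Φ (z * p n * star z)) = ((σ (Φ (z * p n * star z))).re : ℂ) := fun n =>
    Complex.ext rfl (Complex.le_def.1 (hnn n)).2.symm
  obtain ⟨δ, hδ, hlow⟩ : ∃ δ : ℝ, 0 < δ ∧ ∀ n, δ ≤ (σ (Φ (z * p n * star z))).re := by
    by_contra h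
    push Not at h
    refine hcon (Metric.tendsto_atTop.2 fun ε hε => ?_)
    obtain ⟨N, hN⟩ := h ε hε
    refine ⟨N, fun n hn => ?_⟩
    rw [dist_zero_right]
    show ‖σ (Φ (z * p n * star z))‖ < ε
    rw [hre n, Complex.norm_real, Real.norm_of_nonneg (Complex.le_def.1 (hnn n)).1]
    exact lt_of_le_of_lt (hanti hn) hN
  obtain ⟨G, _, _, _, ρ, Ω, w, E, E', hΩ, -, -, hE, hEi, -, -⟩ :=
    exists_subspaces j Φ hone hl hr hpos hσ.1 he hδ hlow
  obtain ⟨e0, he0, he00⟩ := E.ne_bot_iff.1 hEi.ne_bot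
  have : CompleteSpace E := hEi.closed.completeSpace_coe
  have hirr : IrrRep (restrict (ρ.comp j) E hEi.inv) := by
    intro N hN hNi
    have hNc : IsClosed (N.map E.subtype : Set G) := by
      rw [Submodule.map_coe]
      exact hEi.closed.isClosedEmbedding_subtypeVal.isClosedMap _ hN
    rcases hEi.minimal (N.map E.subtype) (Submodule.map_subtype_le E N) hNc
        (by rintro d _ ⟨v, hv, rfl⟩; exact ⟨_, hNi d v hv, rfl⟩) with h | h
    · exact Or.inl (Submodule.map_injective_of_injective E.injective_subtype (by rw [h, Submodule.map_bot]))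
    · exact Or.inr (Submodule.map_injective_of_injective E.injective_subtype
        (by rw [h, Submodule.map_top, Submodule.range_subtype]))
  set e : E := (‖(⟨e0, he0⟩ : E)‖⁻¹ : ℂ) • ⟨e0, he0⟩
  have he1 : ‖e‖ = 1 := norm_smul_inv_norm fun h => he00 (congrArg Subtype.val h)
  obtain ⟨q, hq⟩ := hex E (restrict (ρ.comp j) E hEi.inv) e hirr he1
  have hfix : ∀ n, ρ (j (q n)) (e : G) = e := fun n => by
    have := hq.fixed_of_state (π := restrict (ρ.comp j) E hEi.inv) he1 (fun _ => rfl) n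
    exact congrArg Subtype.val this
  have horth : ∀ d, ⟪ρ (j d) Ω, (e : G)⟫_ℂ = 0 := by
    intro d
    have hle : ∀ n, ‖⟪ρ (j d) Ω, (e : G)⟫_ℂ‖ ^ 2 ≤ (σ (star d * q n * d)).re := by
      intro n
      rw [← hfix n, apply_adj ρ (j (q n)), ← map_star j, hq.1.star_eq, apply_mul, ← map_mul]
      refine (pow_le_pow_left₀ (norm_nonneg _) (norm_inner_le_norm _ _) 2).trans ?_
      rw [show ‖(e : G)‖ = 1 from he1, mul_one]
      refine le_of_eq ?_
      have e2 : star d * q n * d = star (q n * d) * (q n * d) := by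
        conv_rhs => rw [star_mul, hq.1.star_eq, mul_assoc, ← mul_assoc (q n), hq.1.idem, ← mul_assoc]
      rw [e2, ← hΩ, map_mul j (star (q n * d)), map_star, ← apply_mul,
        apply_adj ρ (star (j (q n * d))), star_star, inner_self_eq_norm_sq_to_K]
      norm_cast
    have hlim0 : Tendsto (fun n => (σ (star d * q n * d)).re) atTop (𝓝 0) := by
      have := (Complex.continuous_re.tendsto _).comp (hσ.2 q _ hq (star d))
      simpa [Function.comp_def] using this
    have := ge_of_tendsto hlim0 (Eventually.of_forall hle)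
    exact norm_eq_zero.1 (by nlinarith [norm_nonneg ⟪ρ (j d) Ω, (e : G)⟫_ℂ])
  have heL : (e : G) ∈ orbitCl (ρ.comp j) Ω := hE e.2
  have h0 : ⟪(e : G), (e : G)⟫_ℂ = 0 := by
    rw [orbitCl, ← SetLike.mem_coe, Submodule.topologicalClosure_coe] at heL
    refine closure_minimal (t := {v | ⟪v, (e : G)⟫_ℂ = 0}) ?_
      (isClosed_eq (by fun_prop) continuous_const) heL
    rintro _ ⟨d, rfl⟩
    exact horth d
  rw [inner_self_eq_norm_sq_to_K, show ‖(e : G)‖ = 1 from he1] at h0
  simp at h0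

end Vale.Agent.P070.ZFC.Dicho
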