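import Mathlib

/-!
# P070 ZFC, dichotomy: Hilbert space preliminaries

Invariant subspaces of a representation, orthogonal subspaces, spectral cut of `star T * T`.
-/

noncomputable section

namespace Vale.Agent.P070.ZFC.Dicho

open scoped InnerProductSpace
open Topology

variable {A G : Type*} [CStarAlgebra A] [NormedAddCommGroup G] [InnerProductSpace ℂ G]
  [CompleteSpace G]

/-- `K` is invariant under the representation. -/
def Inv (π : A →⋆ₐ[ℂ] (G →L[ℂ] G)) (K : Submodule ℂ G) : Prop :=
  ∀ a, ∀ v ∈ K, π a v ∈ K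

/-- A nonzero closed invariant subspace without proper nonzero closed invariant subspace. -/
structure IrrInv (π : A →⋆ₐ[ℂ] (G →L[ℂ] G)) (E : Submodule ℂ G) : Prop where
  closed : IsClosed (E : Set G)
  ne_bot : E ≠ ⊥
  inv : Inv π E
  minimal : ∀ F : Submodule ℂ G, F ≤ E → IsClosed (F : Set G) → Inv π F → F = ⊥ ∨ F = E

/-- The orbit map of a vector. -/
def orbitMap (π : A →⋆ₐ[ℂ] (G →L[ℂ] G)) (v : G) : A →ₗ[ℂ] G where
  toFun a := π a v
  map_add' a b := by simp
  map_smul' z a := by simp

/-- The closed cyclic subspace of a vector. -/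
def orbitCl (π : A →⋆ₐ[ℂ] (G →L[ℂ] G)) (v : G) : Submodule ℂ G :=
  (LinearMap.range (orbitMap π v)).topologicalClosure

variable {π : A →⋆ₐ[ℂ] (G →L[ℂ] G)}

lemma apply_adj (π : A →⋆ₐ[ℂ] (G →L[ℂ] G)) (a : A) (x y : G) :
    ⟪x, π a y⟫_ℂ = ⟪π (star a) x, y⟫_ℂ := by
  rw [map_star, ContinuousLinearMap.star_eq_adjoint, ContinuousLinearMap.adjoint_inner_left]

lemma apply_mul (π : A →⋆ₐ[ℂ] (G →L[ℂ] G)) (a b : A) (x : G) : π a (π b x) = π (a * b) x := by
  rw [map_mul]; rfl

lemma Inv.closure {K : Submodule ℂ G} (hK : Inv π K) : Inv π K.topologicalClosure := by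
  intro a v hv
  rw [← SetLike.mem_coe, Submodule.topologicalClosure_coe] at hv ⊢
  exact map_mem_closure (π a).continuous hv fun w hw => hK a w hw

lemma inv_range_orbitMap (v : G) : Inv π (LinearMap.range (orbitMap π v)) := by
  rintro a _ ⟨b, rfl⟩
  exact ⟨a * b, (apply_mul π a b v).symm⟩

lemma inv_orbitCl (v : G) : Inv π (orbitCl π v) := (inv_range_orbitMap v).closure

lemma isClosed_orbitCl (v : G) : IsClosed (orbitCl π v : Set G) :=
  Submodule.isClosed_topologicalClosure _

lemma apply_mem_orbitCl (v : G) (a : A) : π a v ∈ orbitCl π v :=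
  Submodule.le_topologicalClosure _ ⟨a, rfl⟩

lemma mem_orbitCl (v : G) : v ∈ orbitCl π v := by
  simpa using apply_mem_orbitCl (π := π) v 1

lemma Inv.inf_orthogonal {E F : Submodule ℂ G} (hE : Inv π E) (hF : Inv π F) :
    Inv π (E ⊓ Fᗮ) := fun a v hv =>
  ⟨hE a v hv.1, fun k hk => by rw [apply_adj]; exact hv.2 _ (hF (star a) k hk)⟩

omit [CompleteSpace G] in
/-- A vector orthogonal to a set is orthogonal to the closure of its span. -/
lemma inner_eq_zero_of_span {s : Set G} {x v : G} (hv : v ∈ (Submodule.span ℂ s).topologicalClosure)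
    (h : ∀ y ∈ s, ⟪x, y⟫_ℂ = 0) : ⟪x, v⟫_ℂ = 0 := by
  have h1 : ∀ y ∈ Submodule.span ℂ s, ⟪x, y⟫_ℂ = 0 := by
    intro y hy
    induction hy using Submodule.span_induction with
    | mem y hy => exact h y hy
    | zero => exact inner_zero_right _
    | add y z _ _ hy hz => rw [inner_add_right, hy, hz, add_zero]
    | smul c y _ hy => rw [inner_smul_right, hy, mul_zero]
  rw [← SetLike.mem_coe, Submodule.topologicalClosure_coe] at hv
  exact closure_minimal (t := {y | ⟪x, y⟫_ℂ = 0}) h1
    (isClosed_eq (by fun_prop) continuous_const) hv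

/-- The projection onto a closed invariant subspace commutes with the representation. -/
lemma starProjection_comm {K : Submodule ℂ G} [K.HasOrthogonalProjection] (hK : Inv π K) (a : A)
    (v : G) : K.starProjection (π a v) = π a (K.starProjection v) := by
  refine Submodule.eq_starProjection_of_mem_orthogonal' (z := π a (v - K.starProjection v))
    (hK a _ (K.starProjection_apply_mem v)) ?_ ?_
  · intro k hk
    rw [apply_adj]
    exact K.sub_starProjection_mem_orthogonal v _ (hK (star a) k hk)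
  · rw [map_sub, add_sub_cancel]

omit [CompleteSpace G] in
/-- Orthogonal subspaces of `K` carry at most the part of a vector lying in `K`. -/
lemma norm_sq_add_le {K K₁ K₂ : Submodule ℂ G} [K.HasOrthogonalProjection]
    [K₁.HasOrthogonalProjection] [K₂.HasOrthogonalProjection] (h1 : K₁ ≤ K) (h2 : K₂ ≤ K)
    (h : ∀ u ∈ K₁, ∀ v ∈ K₂, ⟪u, v⟫_ℂ = 0) (w : G) :
    ‖K₁.starProjection w‖ ^ 2 + ‖K₂.starProjection w‖ ^ 2 ≤ ‖K.starProjection w‖ ^ 2 := by
  set u := K.starProjection w
  set x := K₁.starProjection w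
  set y := K₂.starProjection w
  have hx : ⟪u, x⟫_ℂ = ⟪x, x⟫_ℂ := by
    rw [Submodule.inner_starProjection_left_eq_right,
      Submodule.starProjection_eq_self_iff.2 (h1 (K₁.starProjection_apply_mem w)),
      ← Submodule.starProjection_eq_self_iff.2 (K₁.starProjection_apply_mem w),
      ← Submodule.inner_starProjection_left_eq_right]
  have hy : ⟪u, y⟫_ℂ = ⟪y, y⟫_ℂ := by
    rw [Submodule.inner_starProjection_left_eq_right,
      Submodule.starProjection_eq_self_iff.2 (h2 (K₂.starProjection_apply_mem w)),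
      ← Submodule.starProjection_eq_self_iff.2 (K₂.starProjection_apply_mem w),
      ← Submodule.inner_starProjection_left_eq_right]
  have hxy := h x (K₁.starProjection_apply_mem w) y (K₂.starProjection_apply_mem w)
  have h0 := sq_nonneg ‖u - (x + y)‖
  rw [norm_sub_sq (𝕜 := ℂ), norm_add_sq (𝕜 := ℂ), inner_add_right, hx, hy, hxy, map_add,
    ← norm_sq_eq_re_inner (𝕜 := ℂ), ← norm_sq_eq_re_inner (𝕜 := ℂ), map_zero] at h0
  linarith

/-- A spectral cut of `star T * T`: a nonzero operator below which `star T * T` is bounded below. -/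
lemma exists_cut (T : G →L[ℂ] G) (hT : star T * T ≠ 0) :
    ∃ (t : ℝ) (g m : G →L[ℂ] G), 0 < t ∧ g ≠ 0 ∧ g = star T * T * m ∧
      (∀ X : G →L[ℂ] G, Commute (star T * T) X → Commute g X) ∧
      ∀ v, t * ‖g v‖ ^ 2 ≤ ‖T (g v)‖ ^ 2 := by
  set Y := star T * T with hY
  have hYs : IsSelfAdjoint Y := IsSelfAdjoint.star_mul_self T
  set t := ‖Y‖ / 2 with ht
  have ht0 : 0 < t := half_pos (norm_pos_iff.2 hT)
  set f : ℝ → ℝ := fun s => max (s - t) 0 with hf
  set r : ℝ → ℝ := fun s => f s / max s t with hr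
  set k : ℝ → ℝ := fun s => f s * Real.sqrt (f s) with hk
  have hfc : Continuous f := by fun_prop
  have hrc : Continuous r :=
    hfc.div (by fun_prop) fun s => (lt_max_of_lt_right ht0).ne'
  have hkc : Continuous k := hfc.mul hfc.sqrt
  refine ⟨t, cfc f Y, cfc r Y, ht0, ?_, ?_, fun X hX => hX.cfc_real f, fun v => ?_⟩
  · intro h0
    have h1 : ∀ s ∈ spectrum ℝ Y, ‖s‖ ≤ t := by
      intro s hs
      have hs0 : 0 ≤ s := spectrum_star_mul_self_nonneg s hs
      have := (cfc_eq_cfc_iff_eqOn hYs hfc.continuousOn continuousOn_const).1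
        (h0.trans (cfc_const_zero ℝ Y).symm) hs
      rw [Real.norm_of_nonneg hs0]
      simp only [hf] at this
      linarith [le_max_left (s - t) 0]
    have h2 : ‖cfc (id : ℝ → ℝ) Y‖ ≤ t := norm_cfc_le ht0.le h1
    rw [cfc_id ℝ Y] at h2
    linarith [norm_pos_iff.2 hT]
  · conv_rhs => arg 1; rw [← cfc_id' ℝ Y]
    rw [← cfc_mul (fun s => s) r Y continuousOn_id hrc.continuousOn]
    refine cfc_congr fun s hs => ?_
    simp only [hr, hf]
    rcases le_or_gt s t with h | h
    · rw [max_eq_right (by linarith), zero_div, mul_zero]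
    · rw [max_eq_left (le_of_lt h), mul_div_assoc', mul_div_cancel_left₀ _ (ht0.trans h).ne']
  · have e : cfc f Y * Y * cfc f Y = t • (cfc f Y * cfc f Y) + cfc k Y * cfc k Y := by
      conv_lhs => arg 1; arg 2; rw [← cfc_id' ℝ Y]
      rw [← cfc_mul f (fun s => s) Y hfc.continuousOn continuousOn_id,
        ← cfc_mul (fun s => f s * s) f Y (hfc.mul continuous_id).continuousOn hfc.continuousOn,
        ← cfc_mul f f Y hfc.continuousOn hfc.continuousOn,
        ← cfc_mul k k Y hkc.continuousOn hkc.continuousOn,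
        ← cfc_smul t (fun s => f s * f s) Y (hfc.mul hfc).continuousOn,
        ← cfc_add Y (fun s => t • (f s * f s)) (fun s => k s * k s)
          ((hfc.mul hfc).const_smul t).continuousOn (hkc.mul hkc).continuousOn]
      refine cfc_congr fun s _ => ?_
      have hf0 : 0 ≤ f s := le_max_right _ _
      have h1 : k s * k s = f s ^ 3 := by
        simp only [hk]
        rw [mul_mul_mul_comm, Real.mul_self_sqrt hf0]
        ring
      rw [h1, smul_eq_mul]
      simp only [hf]
      rcases le_or_gt s t with h | h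
      · rw [max_eq_right (by linarith)]; ring
      · rw [max_eq_left (by linarith)]; ring
    have hsa : ∀ q : ℝ → ℝ, ∀ x : G, ⟪x, (cfc q Y * cfc q Y) x⟫_ℂ = ((‖cfc q Y x‖ ^ 2 : ℝ) : ℂ) := by
      intro q x
      have hq : star (cfc q Y) = cfc q Y := (cfc_predicate q Y : IsSelfAdjoint _).star_eq
      nth_rw 1 [← hq]
      rw [mul_apply_eq_comp, ContinuousLinearMap.star_eq_adjoint,
        ContinuousLinearMap.adjoint_inner_right, inner_self_eq_norm_sq_to_K]
      norm_cast
    have e2 : ⟪v, (cfc f Y * Y * cfc f Y) v⟫_ℂ = ((‖T (cfc f Y v)‖ ^ 2 : ℝ) : ℂ) := by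
      have hq : star (cfc f Y) = cfc f Y := (cfc_predicate f Y : IsSelfAdjoint _).star_eq
      nth_rw 1 [← hq]
      rw [mul_apply_eq_comp, mul_apply_eq_comp, ContinuousLinearMap.star_eq_adjoint,
        ContinuousLinearMap.adjoint_inner_right, hY, mul_apply_eq_comp,
        ContinuousLinearMap.star_eq_adjoint, ContinuousLinearMap.adjoint_inner_right,
        inner_self_eq_norm_sq_to_K]
      norm_cast
    rw [e, add_apply, smul_apply, inner_add_right, RCLike.real_smul_eq_coe_smul (K := ℂ),
      inner_smul_right, hsa, hsa] at e2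
    have h2 := congrArg Complex.re e2
    simp only [Complex.add_re, Complex.coe_algebraMap, Complex.re_ofReal_mul,
      Complex.ofReal_re] at h2
    linarith [sq_nonneg ‖cfc k Y v‖]

end Vale.Agent.P070.ZFC.Dicho
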