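import Vale.Agent.P070.ZFC.Dicho.Basics

/-!
# P070 ZFC, dichotomy: the pinching argument

`ρ` is a representation of `C` with cyclic vector `Ω`, compressed to the cyclic subspace `L` of `D`
by `Φ`; the vector `w` is fixed by excising projections `p n`. Then some subspace of `L` is irreducible
for `D`, and so is some subspace of the cyclic space of `w`.
-/

noncomputable section

namespace Vale.Agent.P070.ZFC.Dicho

open scoped InnerProductSpace
open Topology Filter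

variable {C D G : Type*} [CStarAlgebra C] [CStarAlgebra D] [NormedAddCommGroup G]
  [InnerProductSpace ℂ G] [CompleteSpace G]
variable (j : D →⋆ₐ[ℂ] C) (Φ : C → D) (ρ : C →⋆ₐ[ℂ] (G →L[ℂ] G)) {Ω w : G}

/-- Every operator commuting with `ρ` is a scalar on the cyclic space of an excised vector. -/
lemma scalar_on_orbit {p : ℕ → C} {η : C → ℂ} (hp : ∀ n, star (p n) = p n)
    (hpw : ∀ n, ρ (p n) w = w)
    (hexc : ∀ x, Tendsto (fun n => ‖p n * x * p n - η x • p n‖) atTop (𝓝 0)) (hw : ‖w‖ = 1)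
    {T : G →L[ℂ] G} (hT : ∀ a v, T (ρ a v) = ρ a (T v)) {m m' : G} (hm : m ∈ orbitCl ρ w)
    (hm' : m' ∈ orbitCl ρ w) : ⟪m, T m'⟫_ℂ = ⟪w, T w⟫_ℂ * ⟪m, m'⟫_ℂ := by
  have hlim : ∀ (x : C) (u : G), (∀ n, ρ (p n) u = u) →
      ⟪w, ρ x u⟫_ℂ = η x * ⟪w, u⟫_ℂ := by
    intro x u hu
    have h1 : ∀ n, ⟪w, ρ x u⟫_ℂ - η x * ⟪w, u⟫_ℂ = ⟪w, ρ (p n * x * p n - η x • p n) u⟫_ℂ := by
      intro n
      rw [map_sub, map_smul, sub_apply, smul_apply, inner_sub_right, inner_smul_right, hu,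
        ← apply_mul, hu, ← apply_mul, apply_adj ρ (p n), hp, hpw]
    refine sub_eq_zero.1 (norm_le_zero_iff.1 ?_)
    have hlim2 : Tendsto (fun n => ‖p n * x * p n - η x • p n‖ * ‖u‖) atTop (𝓝 0) := by
      simpa using (hexc x).mul_const ‖u‖
    refine ge_of_tendsto hlim2 (Eventually.of_forall fun n => ?_)
    rw [h1 n]
    refine (norm_inner_le_norm _ _).trans ?_
    rw [hw, one_mul]
    refine ((ρ _).le_opNorm u).trans (mul_le_mul_of_nonneg_right ?_ (norm_nonneg _))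
    exact NonUnitalStarAlgHom.norm_apply_le ρ _
  have hTw : ∀ n, ρ (p n) (T w) = T w := fun n => by rw [← hT, hpw]
  have hab : ∀ a b, ⟪ρ a w, T (ρ b w)⟫_ℂ = ⟪w, T w⟫_ℂ * ⟪ρ a w, ρ b w⟫_ℂ := by
    intro a b
    have e1 : ⟪ρ a w, T (ρ b w)⟫_ℂ = ⟪w, ρ (star a * b) (T w)⟫_ℂ := by
      rw [hT, ← apply_mul, apply_adj ρ (star a), star_star]
    have e2 : ⟪ρ a w, ρ b w⟫_ℂ = ⟪w, ρ (star a * b) w⟫_ℂ := by
      rw [← apply_mul, apply_adj ρ (star a), star_star]
    rw [e1, e2, hlim _ _ hTw, hlim _ _ hpw, inner_self_eq_norm_sq_to_K, hw]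
    simp [mul_comm]
  rw [orbitCl, ← SetLike.mem_coe, Submodule.topologicalClosure_coe] at hm hm'
  have h1 : ∀ b, ⟪m, T (ρ b w)⟫_ℂ = ⟪w, T w⟫_ℂ * ⟪m, ρ b w⟫_ℂ := fun b =>
    closure_minimal (t := {m | ⟪m, T (ρ b w)⟫_ℂ = ⟪w, T w⟫_ℂ * ⟪m, ρ b w⟫_ℂ})
      (by rintro _ ⟨a, rfl⟩; exact hab a b) (isClosed_eq (by fun_prop) (by fun_prop)) hm
  exact closure_minimal (t := {m' | ⟪m, T m'⟫_ℂ = ⟪w, T w⟫_ℂ * ⟪m, m'⟫_ℂ})
    (by rintro _ ⟨b, rfl⟩; exact h1 b) (isClosed_eq (by fun_prop) (by fun_prop)) hm'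

/-- The closed `ρ`-invariant subspace generated by `E`. -/
def gen (E : Submodule ℂ G) : Submodule ℂ G :=
  (Submodule.span ℂ {v : G | ∃ a : C, ∃ e ∈ E, ρ a e = v}).topologicalClosure

lemma le_gen (E : Submodule ℂ G) : E ≤ gen ρ E := fun e he =>
  Submodule.le_topologicalClosure _ (Submodule.subset_span ⟨1, e, he, by simp⟩)

lemma inv_gen (E : Submodule ℂ G) : Inv ρ (gen ρ E) := by
  refine Inv.closure fun a v hv => ?_
  induction hv using Submodule.span_induction with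
  | mem v hv =>
    obtain ⟨b, e, he, rfl⟩ := hv
    exact Submodule.subset_span ⟨a * b, e, he, (apply_mul ρ a b e).symm⟩
  | zero => rw [map_zero]; exact zero_mem _
  | add x y _ _ hx hy => rw [map_add]; exact add_mem hx hy
  | smul c x _ hx => rw [map_smul]; exact Submodule.smul_mem _ c hx

lemma gen_mono {E F : Submodule ℂ G} (h : E ≤ F) : gen ρ E ≤ gen ρ F :=
  Submodule.topologicalClosure_mono
    (Submodule.span_mono fun _ ⟨a, e, he, hv⟩ => ⟨a, e, h he, hv⟩)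

/-- On the cyclic space of `D`, `ρ y` compresses to the action of `Φ y`. -/
lemma inner_compress (hcomp : ∀ (y : C) (d e : D),
      ⟪ρ (j d) Ω, ρ y (ρ (j e) Ω)⟫_ℂ = ⟪ρ (j d) Ω, ρ (j (Φ y)) (ρ (j e) Ω)⟫_ℂ)
    {l l' : G} (hl : l ∈ orbitCl (ρ.comp j) Ω) (hl' : l' ∈ orbitCl (ρ.comp j) Ω) (y : C) :
    ⟪l, ρ y l'⟫_ℂ = ⟪l, ρ (j (Φ y)) l'⟫_ℂ := by
  rw [orbitCl, ← SetLike.mem_coe, Submodule.topologicalClosure_coe] at hl hl'
  have h1 : ∀ e, ⟪l, ρ y (ρ (j e) Ω)⟫_ℂ = ⟪l, ρ (j (Φ y)) (ρ (j e) Ω)⟫_ℂ := fun e =>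
    closure_minimal (t := {l | ⟪l, ρ y (ρ (j e) Ω)⟫_ℂ = ⟪l, ρ (j (Φ y)) (ρ (j e) Ω)⟫_ℂ})
      (by rintro _ ⟨d, rfl⟩; exact hcomp y d e) (isClosed_eq (by fun_prop) (by fun_prop)) hl
  exact closure_minimal (t := {l' | ⟪l, ρ y l'⟫_ℂ = ⟪l, ρ (j (Φ y)) l'⟫_ℂ})
    (by rintro _ ⟨e, rfl⟩; exact h1 e) (isClosed_eq (by fun_prop) (by fun_prop)) hl'

/-- Orthogonal invariant subspaces of the cyclic space of `D` generate orthogonal subspaces. -/
lemma gen_orthogonal (hcomp : ∀ (y : C) (d e : D),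
      ⟪ρ (j d) Ω, ρ y (ρ (j e) Ω)⟫_ℂ = ⟪ρ (j d) Ω, ρ (j (Φ y)) (ρ (j e) Ω)⟫_ℂ)
    {E F : Submodule ℂ G} (hE : E ≤ orbitCl (ρ.comp j) Ω) (hF : F ≤ orbitCl (ρ.comp j) Ω)
    (hFi : Inv (ρ.comp j) F) (h : ∀ u ∈ E, ∀ v ∈ F, ⟪u, v⟫_ℂ = 0)
    {u v : G} (hu : u ∈ gen ρ E) (hv : v ∈ gen ρ F) : ⟪u, v⟫_ℂ = 0 := by
  refine inner_eq_zero_of_span hv fun y hy => ?_
  obtain ⟨b, f, hf, rfl⟩ := hy
  rw [inner_eq_zero_symm]
  refine inner_eq_zero_of_span hu fun x hx => ?_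
  obtain ⟨a, e, he, rfl⟩ := hx
  rw [inner_eq_zero_symm]
  calc ⟪ρ a e, ρ b f⟫_ℂ = ⟪e, ρ (star a * b) f⟫_ℂ := by
        rw [← apply_mul, apply_adj ρ (star a), star_star]
    _ = ⟪e, ρ (j (Φ (star a * b))) f⟫_ℂ := inner_compress j Φ ρ hcomp (hE he) (hF hf) _
    _ = 0 := h e he _ (hFi (Φ (star a * b)) f hf)

/-- The pinching argument. -/
theorem exists_irrInv (hcomp : ∀ (y : C) (d e : D),
      ⟪ρ (j d) Ω, ρ y (ρ (j e) Ω)⟫_ℂ = ⟪ρ (j d) Ω, ρ (j (Φ y)) (ρ (j e) Ω)⟫_ℂ)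
    (hwΩ : w ∈ orbitCl ρ Ω) {p : ℕ → C} {η : C → ℂ} (hp : ∀ n, star (p n) = p n)
    (hpw : ∀ n, ρ (p n) w = w)
    (hexc : ∀ x, Tendsto (fun n => ‖p n * x * p n - η x • p n‖) atTop (𝓝 0)) (hw : ‖w‖ = 1) :
    ∃ E E' : Submodule ℂ G, E ≤ orbitCl (ρ.comp j) Ω ∧ IrrInv (ρ.comp j) E ∧
      E' ≤ orbitCl ρ w ∧ IrrInv (ρ.comp j) E' ∧
      ∀ e ∈ E, e ≠ 0 → ∃ m ∈ orbitCl ρ w, ⟪m, e⟫_ℂ ≠ 0 := by
  set L := orbitCl (ρ.comp j) Ω with hL
  set M := orbitCl ρ w with hM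
  have : CompleteSpace L := (isClosed_orbitCl _).completeSpace_coe
  have : CompleteSpace M := (isClosed_orbitCl _).completeSpace_coe
  set PL := L.starProjection
  set PM := M.starProjection
  have hPMc : ∀ a v, PM (ρ a v) = ρ a (PM v) := fun a v => starProjection_comm (inv_orbitCl w) a v
  have hPLc : ∀ d v, PL (ρ (j d) v) = ρ (j d) (PL v) := fun d v =>
    starProjection_comm (π := ρ.comp j) (inv_orbitCl Ω) d v
  set T := PM * PL with hTdef
  set Y := star T * T with hY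
  have hTd : ∀ d v, T (ρ (j d) v) = ρ (j d) (T v) := fun d v => by
    rw [hTdef, mul_apply_eq_comp, hPLc, hPMc]
    rfl
  have hPLs : star PL = PL := isSelfAdjoint_starProjection L
  have hYrange : ∀ v, Y v ∈ L := by
    intro v
    rw [hY, hTdef, star_mul, hPLs]
    exact L.starProjection_apply_mem _
  -- `T` does not vanish
  have hY0 : Y ≠ 0 := by
    intro h0
    have hT0 : T = 0 := (CStarRing.star_mul_self_eq_zero_iff T).1 h0
    have h1 : PM Ω = 0 := by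
      have := congr($hT0 Ω)
      rwa [hTdef, mul_apply_eq_comp, zero_apply,
        Submodule.starProjection_eq_self_iff.2 (mem_orbitCl Ω)] at this
    have h2 : ∀ a, ⟪w, ρ a Ω⟫_ℂ = 0 := fun a => by
      rw [apply_adj, ← Submodule.starProjection_eq_self_iff.2
        (show ρ (star a) w ∈ M from apply_mem_orbitCl w _),
        Submodule.inner_starProjection_left_eq_right, h1, inner_zero_right]
    have hw' := hwΩ
    rw [orbitCl, ← SetLike.mem_coe, Submodule.topologicalClosure_coe] at hw'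
    have h3 : ⟪w, w⟫_ℂ = 0 :=
      closure_minimal (t := {v | ⟪w, v⟫_ℂ = 0}) (by rintro _ ⟨a, rfl⟩; exact h2 a)
        (isClosed_eq (by fun_prop) continuous_const) hw'
    rw [inner_self_eq_norm_sq_to_K, hw] at h3
    simp at h3
  obtain ⟨t, g, m, ht, hg0, hgm, hgc, hgt⟩ := exists_cut T hY0
  -- the subspace on which `PM` is bounded below
  set E0 := (LinearMap.range (g : G →ₗ[ℂ] G)).topologicalClosure
  have hE0L : E0 ≤ L := by
    refine Submodule.topologicalClosure_minimal _ ?_ (isClosed_orbitCl _)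
    rintro _ ⟨v, rfl⟩
    show g v ∈ L
    rw [hgm, mul_apply_eq_comp]
    exact hYrange _
  have hE0i : Inv (ρ.comp j) E0 := by
    refine Inv.closure ?_
    rintro d _ ⟨v, rfl⟩
    have hcY : Commute Y (ρ (j d)) := by
      have hTc : Commute T (ρ (j d)) := ContinuousLinearMap.ext fun v => hTd d v
      have hTc' : Commute (star T) (ρ (j d)) := by
        have h' : Commute T (ρ (j (star d))) := ContinuousLinearMap.ext fun v => hTd (star d) v
        have := h'.star_star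
        rwa [← map_star, ← map_star, star_star] at this
      exact hTc'.mul_left hTc
    exact ⟨ρ (j d) v, congr($((hgc _ hcY).eq) v)⟩
  have hE0b : ∀ l ∈ E0, t * ‖l‖ ^ 2 ≤ ‖PM l‖ ^ 2 := by
    intro l hl
    rw [← SetLike.mem_coe, Submodule.topologicalClosure_coe] at hl
    refine closure_minimal (t := {l | t * ‖l‖ ^ 2 ≤ ‖PM l‖ ^ 2}) ?_
      (isClosed_le (by fun_prop) (by fun_prop)) hl
    rintro _ ⟨v, rfl⟩
    refine (hgt v).trans_eq ?_
    rw [hTdef, mul_apply_eq_comp, Submodule.starProjection_eq_self_iff.2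
      (hE0L (Submodule.le_topologicalClosure _ ⟨v, rfl⟩) : g v ∈ L)]
    rfl
  -- the weight of an invariant subspace
  set c : Submodule ℂ G → ℝ := fun E =>
    haveI : CompleteSpace (gen ρ E) := (Submodule.isClosed_topologicalClosure _).completeSpace_coe
    ‖(gen ρ E).starProjection w‖ ^ 2
  have hct : ∀ E ≤ E0, E ≠ ⊥ → t ≤ c E := by
    intro E hE hne
    have : CompleteSpace (gen ρ E) := (Submodule.isClosed_topologicalClosure _).completeSpace_coe
    obtain ⟨l, hl, hl0⟩ := E.ne_bot_iff.1 hne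
    set P := (gen ρ E).starProjection
    set q := PM l
    have hq : q ∈ M := M.starProjection_apply_mem l
    have h1 : ‖P q‖ ^ 2 = c E * ‖q‖ ^ 2 := by
      have e := scalar_on_orbit ρ hp hpw hexc hw
        (fun a v => starProjection_comm (inv_gen ρ E) a v) hq hq
      have hP : ∀ u, ⟪u, P u⟫_ℂ = ((‖P u‖ ^ 2 : ℝ) : ℂ) := fun u => by
        nth_rw 1 [← Submodule.starProjection_eq_self_iff.2 ((gen ρ E).starProjection_apply_mem u)]
        rw [← Submodule.inner_starProjection_left_eq_right, inner_self_eq_norm_sq_to_K]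
        norm_cast
      rw [hP, hP, inner_self_eq_norm_sq_to_K] at e
      simpa [← Complex.ofReal_mul, ← Complex.ofReal_pow, c] using congrArg Complex.re e
    have h2 : ⟪q, q⟫_ℂ = ⟪P q, l⟫_ℂ := by
      have e1 : ⟪P q, l⟫_ℂ = ⟪q, l⟫_ℂ := by
        rw [Submodule.inner_starProjection_left_eq_right (gen ρ E) q l,
          Submodule.starProjection_eq_self_iff.2 (le_gen ρ E hl)]
      have e2 : ⟪PM q, l⟫_ℂ = ⟪q, q⟫_ℂ := Submodule.inner_starProjection_left_eq_right M q l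
      rw [e1, ← e2, show PM q = q from Submodule.starProjection_eq_self_iff.2 hq]
    have h3 : ‖q‖ ^ 2 ≤ ‖P q‖ * ‖l‖ := by
      have := congrArg (‖·‖) h2
      simp only [inner_self_eq_norm_sq_to_K, norm_pow, RCLike.norm_ofReal, abs_norm] at this
      rw [this]
      exact norm_inner_le_norm _ _
    have h4 := hE0b l (hE hl)
    have hl1 : 0 < ‖l‖ ^ 2 := by
      have := norm_pos_iff.2 hl0
      positivity
    have h5 : ‖q‖ ^ 2 * ‖q‖ ^ 2 ≤ c E * ‖q‖ ^ 2 * ‖l‖ ^ 2 := by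
      rw [← h1]
      calc ‖q‖ ^ 2 * ‖q‖ ^ 2 ≤ (‖P q‖ * ‖l‖) * (‖P q‖ * ‖l‖) :=
            mul_le_mul h3 h3 (sq_nonneg _) (by positivity)
        _ = _ := by ring
    have hq0 : 0 < ‖q‖ ^ 2 := lt_of_lt_of_le (mul_pos ht hl1) h4
    have h6 : ‖q‖ ^ 2 ≤ c E * ‖l‖ ^ 2 := by
      refine le_of_mul_le_mul_right ?_ hq0
      linarith
    exact le_of_mul_le_mul_right (h4.trans h6) hl1
  have hc_add : ∀ E F F' : Submodule ℂ G, F ≤ E → F' ≤ E → E ≤ E0 → Inv (ρ.comp j) F' →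
      (∀ u ∈ F, ∀ v ∈ F', ⟪u, v⟫_ℂ = 0) → c F + c F' ≤ c E := by
    intro E F F' hF hF' hE hFi horth
    have : CompleteSpace (gen ρ E) := (Submodule.isClosed_topologicalClosure _).completeSpace_coe
    have : CompleteSpace (gen ρ F) := (Submodule.isClosed_topologicalClosure _).completeSpace_coe
    have : CompleteSpace (gen ρ F') := (Submodule.isClosed_topologicalClosure _).completeSpace_coe
    exact norm_sq_add_le (gen_mono ρ hF) (gen_mono ρ hF')
      (fun u hu v hv => gen_orthogonal j Φ ρ hcomp ((hF.trans hE).trans hE0L)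
        ((hF'.trans hE).trans hE0L) hFi horth hu hv) w
  -- a subspace of nearly minimal weight is irreducible
  set S : Set ℝ := c '' {E | E ≤ E0 ∧ IsClosed (E : Set G) ∧ Inv (ρ.comp j) E ∧ E ≠ ⊥}
  have hE0ne : E0 ≠ ⊥ := by
    intro h
    refine hg0 (ContinuousLinearMap.ext fun v => ?_)
    have h1 : g v ∈ E0 := Submodule.le_topologicalClosure _ ⟨v, rfl⟩
    rw [h, Submodule.mem_bot] at h1
    exact h1
  have hSne : S.Nonempty :=
    ⟨c E0, E0, ⟨le_rfl, Submodule.isClosed_topologicalClosure _, hE0i, hE0ne⟩, rfl⟩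
  have hSt : ∀ r ∈ S, t ≤ r := by
    rintro _ ⟨E, hE, rfl⟩
    exact hct E hE.1 hE.2.2.2
  set I := sInf S
  have hI : t ≤ I := le_csInf hSne hSt
  have hSb : BddBelow S := ⟨t, hSt⟩
  obtain ⟨_, ⟨E, ⟨hE, hEc, hEi, hEne⟩, rfl⟩, hEI⟩ :=
    exists_lt_of_csInf_lt hSne (show I < 2 * I by linarith)
  have hEmin : ∀ F : Submodule ℂ G, F ≤ E → IsClosed (F : Set G) → Inv (ρ.comp j) F →
      F = ⊥ ∨ F = E := by
    intro F hF hFc hFi
    by_contra hcon
    push Not at hcon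
    have : CompleteSpace F := hFc.completeSpace_coe
    set F' := E ⊓ Fᗮ with hF'def
    have hF'i : Inv (ρ.comp j) F' := hEi.inf_orthogonal hFi
    have hF'c : IsClosed (F' : Set G) := hEc.inter (Submodule.isClosed_orthogonal F)
    have hF'ne : F' ≠ ⊥ := by
      intro h
      refine hcon.2 ?_
      have := Submodule.sup_orthogonal_inf_of_hasOrthogonalProjection hF
      rwa [inf_comm, ← hF'def, h, sup_bot_eq] at this
    have h1 : I ≤ c F := csInf_le hSb ⟨F, ⟨hF.trans hE, hFc, hFi, hcon.1⟩, rfl⟩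
    have h2 : I ≤ c F' := csInf_le hSb ⟨F', ⟨inf_le_left.trans hE, hF'c, hF'i, hF'ne⟩, rfl⟩
    have h3 := hc_add E F F' hF inf_le_left hE hF'i fun u hu v hv => hv.2 u hu
    linarith
  -- its projection to `M`
  have : CompleteSpace E := hEc.completeSpace_coe
  have hbelow : ∀ e ∈ E, √t * ‖e‖ ≤ ‖PM e‖ := fun e he => by
    refine (sq_le_sq₀ (by positivity) (norm_nonneg _)).1 ?_
    rw [mul_pow, Real.sq_sqrt ht.le]
    exact hE0b e (hE he)
  refine ⟨E, E.map (PM : G →ₗ[ℂ] G), hE.trans hE0L, ⟨hEc, hEne, hEi, hEmin⟩, ?_, ?_, ?_⟩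
  · rintro _ ⟨e, -, rfl⟩
    exact M.starProjection_apply_mem e
  rotate_left
  · intro e he he0
    refine ⟨PM e, M.starProjection_apply_mem e, fun h => ?_⟩
    have h1 : ⟪PM e, PM e⟫_ℂ = 0 := by
      rw [Submodule.inner_starProjection_left_eq_right,
        Submodule.starProjection_eq_self_iff.2 (M.starProjection_apply_mem e), ← inner_conj_symm, h,
        map_zero]
    have h2 := hbelow e he
    rw [inner_self_eq_zero.1 h1, norm_zero] at h2
    nlinarith [norm_pos_iff.2 he0, Real.sqrt_pos.2 ht]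
  refine ⟨?_, ?_, ?_, ?_⟩
  · set f : E →L[ℂ] G := PM.comp E.subtypeL
    have hanti : AntilipschitzWith (Real.toNNReal (√t)⁻¹) f :=
      AddMonoidHomClass.antilipschitz_of_bound f fun x => by
        have hst : 0 < √t := Real.sqrt_pos.2 ht
        rw [Real.coe_toNNReal _ (inv_nonneg.2 hst.le), ← div_eq_inv_mul, le_div_iff₀' hst]
        exact hbelow x x.2
    have : (E.map (PM : G →ₗ[ℂ] G) : Set G) = Set.range f := by
      ext v
      simp [f]
    rw [this]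
    exact hanti.isClosed_range f.uniformContinuous
  · intro h
    obtain ⟨e, he, he0⟩ := E.ne_bot_iff.1 hEne
    have h1 : PM e ∈ E.map (PM : G →ₗ[ℂ] G) := ⟨e, he, rfl⟩
    rw [h, Submodule.mem_bot] at h1
    have := hbelow e he
    rw [h1, norm_zero] at this
    nlinarith [norm_pos_iff.2 he0, Real.sqrt_pos.2 ht]
  · rintro d _ ⟨e, he, rfl⟩
    exact ⟨ρ (j d) e, hEi d e he, hPMc _ _⟩
  · intro F hF hFc hFi
    set F0 := E ⊓ F.comap (PM : G →ₗ[ℂ] G)
    have hF0c : IsClosed (F0 : Set G) := hEc.inter (hFc.preimage PM.continuous)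
    have hF0i : Inv (ρ.comp j) F0 := fun d v hv => ⟨hEi d v hv.1, by
      show PM (ρ (j d) v) ∈ F
      rw [hPMc]
      exact hFi d _ hv.2⟩
    rcases hEmin F0 inf_le_left hF0c hF0i with h | h
    · left
      rw [Submodule.eq_bot_iff]
      intro v hv
      obtain ⟨e, he, rfl⟩ := hF hv
      have h1 : e ∈ F0 := ⟨he, hv⟩
      rw [h, Submodule.mem_bot] at h1
      rw [h1, map_zero]
    · right
      refine le_antisymm hF ?_
      rintro _ ⟨e, he, rfl⟩
      exact (show e ∈ F0 from h ▸ he).2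

end Vale.Agent.P070.ZFC.Dicho
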